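import Vale.Agent.P277.Stmts35
import Vale.Agent.P277.H884.T.T8A
import Vale.Agent.P277.H29.W.WrapC

/-!
# P277, (WZD): the assembly
-/

set_option maxSynthPendingDepth 3
set_option linter.unusedSectionVars false

open scoped Manifold ContDiff Topology
open Vale.Agent.P272.K Vale.Agent.P285.H281.FD Vale.Agent.P267.H175 Set Filter Metric

noncomputable section

namespace Vale.Agent.P277.H615.WZ

open Vale.Agent.P277 Vale.Agent.P277.T3 H615 H371.C H29.E H884.T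

/-- the support of the effective part is a closed analytic set -/
theorem wz_an {Y : Type} [TopologicalSpace Y] [ChartedSpace (Cm 4) Y]
    [IsManifold 𝓘(ℂ, Cm 4) ω Y] {X : CSp} {K : ℕ}
    {χ : Chart 4 Y → Cm 4 → Matrix (Fin 4) (Fin 4) ℂ} {v : Y → X.pt} {L : Fin K → Bd X.pt}
    {c : Fin K → ℕ} {ρ : Fin K → ℝ} {E : Set Y} (h : IsWZ χ v L c ρ E) :
    IsClosed E ∧ ∀ y, T3.IsAnAt 4 E y := by
  classical
  obtain ⟨q, N, I, τ, x, hN, -, -, hτ, hE, -⟩ := h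
  set S : Finset (Fin q) := Finset.univ.filter (· ∉ I) with hS
  have hmS : ∀ b, b ∈ S ↔ b ∉ I := fun b => by simp [hS]
  have hE' : E = ⋃ b ∈ S, {y | ∃ i, y ∈ (N b).U i ∧ τ b i y = 0} := by
    ext y
    simp only [hE, hmS, mem_iUnion, mem_setOf_eq, exists_prop]
  have han : ∀ y, T3.IsAnAt 4 E y := by
    intro y
    rw [hE']
    refine H60.Z.isAnAt_biUnion S fun b hb => ?_
    have hs := hτ b ((hmS b).1 hb)
    obtain ⟨i, hi⟩ := (hN b).cover y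
    refine ⟨1, fun _ => τ b i, fun _ e he => ?_, ?_⟩
    · exact (hs.holo i e y he hi).analyticAt
    · filter_upwards [((hN b).isOpen i).mem_nhds hi] with y' hy'
      constructor
      · rintro ⟨i', hi', h0⟩ -
        rw [hs.change i i' y' hy' hi', h0, mul_zero]
      · intro h0
        exact ⟨i, hy', h0 0⟩
  refine ⟨?_, han⟩
  rw [← isOpen_compl_iff, isOpen_iff_mem_nhds]
  intro y hy
  obtain ⟨k, f, hf, hS⟩ := han y
  have h1 : ¬ ∀ i, f i y = 0 := fun h0 => hy (hS.self_of_nhds.2 h0)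
  push Not at h1
  obtain ⟨i, hi⟩ := h1
  filter_upwards [(H60.X.holF_cont (hf i)).eventually_ne hi, hS] with y' h2 h3 h4
  exact h2 (h3.1 h4 i)

/-- the key lemma: the blow-ups of the flipped surfaces are centred in the support of the effective
part -/
def StKeyW : Prop :=
  ∀ (Y : Type) [TopologicalSpace Y] [T2Space Y] [CompactSpace Y] [ChartedSpace (Cm 4) Y]
    [IsManifold 𝓘(ℂ, Cm 4) ω Y] (χ : Chart 4 Y → Cm 4 → Matrix (Fin 4) (Fin 4) ℂ) (k s : ℕ)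
    (M : Fin (k + s) → Bd Y) (m : Fin (k + s) → ℕ) (ρ : Fin (k + s) → ℝ) (H : Fin s → Type)
    [∀ i, TopologicalSpace (H i)] [∀ i, T2Space (H i)] [∀ i, CompactSpace (H i)]
    [∀ i, ConnectedSpace (H i)] [∀ i, ChartedSpace (Cm 3) (H i)]
    [∀ i, IsManifold 𝓘(ℂ, Cm 3) ω (H i)] (ι : ∀ i, H i → Y)
    (sg : ∀ i : Fin s, (M (Fin.natAdd k i)).ι → Y → ℂ) (W : CSp) (X Z : ℕ → CSp) (r : ℕ)
    (v : Y → W.pt) (p : W.pt → (X 0).pt) (P : Bd W.pt) (G : Fin r → Set Y)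
    (f : ∀ j, (X j).pt → (Z j).pt) (f' : ∀ j, (X (j + 1)).pt → (Z j).pt)
    (A : ∀ j, Set (Z j).pt) (L : ∀ j, Fin (k + s) → Bd (X j).pt) (c : ℕ → Fin (k + s) → ℕ)
    (σ : ∀ j, ∀ i : Fin s, (L j (Fin.natAdd k i)).ι → (X j).pt → ℂ)
    (n : Fin (k + s) → Fin r → ℤ) (t : ∀ e, (L 0 e).ι →
      ((((Bd.can 4 Y).pow (m e)).mul (M e)).pow (c 0 e)).ι → Y → ℂ)
    (_ : IsPG χ M m ρ ι sg v p P G f f' A L c σ n t) (E : Set Y)
    (_ : IsWZ χ (fun y => p (v y)) (L 0) (c 0) ρ E) (j : ℕ) (Bad : Set Y) (x : (X (j + 1)).pt),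
    BadPt {x | f' j x ∈ Amin (f j)}
      (Cor (⋃ l, G l) (fun y => p (v y)) f f' (j + 1)) Bad x →
    BadPt {x | f' j x ∈ Amin (f j)}
      (Cor (⋃ l, G l) (fun y => p (v y)) f f' (j + 1)) (Bad ∩ E) x

section

variable {Y : Type} [TopologicalSpace Y] [T2Space Y] [CompactSpace Y]
    [ChartedSpace (Cm 4) Y] [IsManifold 𝓘(ℂ, Cm 4) ω Y]
    {χ : Chart 4 Y → Cm 4 → Matrix (Fin 4) (Fin 4) ℂ} {k s : ℕ}
    {M : Fin (k + s) → Bd Y} {m : Fin (k + s) → ℕ} {ρ : Fin (k + s) → ℝ} {H : Fin s → Type}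
    [∀ i, TopologicalSpace (H i)] [∀ i, T2Space (H i)] [∀ i, CompactSpace (H i)]
    [∀ i, ConnectedSpace (H i)] [∀ i, ChartedSpace (Cm 3) (H i)]
    [∀ i, IsManifold 𝓘(ℂ, Cm 3) ω (H i)] {ι : ∀ i, H i → Y}
    {sg : ∀ i : Fin s, (M (Fin.natAdd k i)).ι → Y → ℂ} {W : CSp} {X Z : ℕ → CSp} {r : ℕ}
    {v : Y → W.pt} {p : W.pt → (X 0).pt} {P : Bd W.pt} {G : Fin r → Set Y}
    {f : ∀ j, (X j).pt → (Z j).pt} {f' : ∀ j, (X (j + 1)).pt → (Z j).pt}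
    {A : ∀ j, Set (Z j).pt} {L : ∀ j, Fin (k + s) → Bd (X j).pt} {c : ℕ → Fin (k + s) → ℕ}
    {σ : ∀ j, ∀ i : Fin s, (L j (Fin.natAdd k i)).ι → (X j).pt → ℂ}
    {n : Fin (k + s) → Fin r → ℤ} {t : ∀ e, (L 0 e).ι →
      ((((Bd.can 4 Y).pow (m e)).mul (M e)).pow (c 0 e)).ι → Y → ℂ}

/-- the count -/
theorem hP8W (h' : IsPG χ M m ρ ι sg v p P G f f' A L c σ n t) {a : Fin r → ℝ}
    (ha' : ∀ l, a l = ∑ e, ρ e * n e l / c 0 e) {E : Set Y} (hEc : IsClosed E)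
    (hEan : ∀ y, T3.IsAnAt 4 E y)
    (hkey : ∀ (j : ℕ) (Bad : Set Y) (x : (X (j + 1)).pt), BadPt {x | f' j x ∈ Amin (f j)}
      (Cor (⋃ l, G l) (fun y => p (v y)) f f' (j + 1)) Bad x →
      BadPt {x | f' j x ∈ Amin (f j)}
        (Cor (⋃ l, G l) (fun y => p (v y)) f f' (j + 1)) (Bad ∩ E) x)
    (h1 : ∃ J, ∀ j ≥ J, DimLe (X (j + 1)) 1 {x | BadPt {x | f' j x ∈ Amin (f j)}
      (Cor (⋃ l, G l) (fun y => p (v y)) f f' (j + 1))
      (((bad ι G {l | a l < 0 ∧ (a l ≤ -1 ∨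
            G l ⊆ E ∧ ZT (⋃ l, G l) (fun y => p (v y)) f f' (G l))}
          {i | 1 ≤ ρ (Fin.natAdd k i)} ∪
        cross ι G {l | -1 < a l ∧ a l < 0}) ∩
          hitT (⋃ l, G l) (fun y => p (v y)) f f' j) ∩ E) x})
    (h2 : ∃ J, ∀ j ≥ J, DimLe (X (j + 1)) 1 {x | x ∈ f' j ⁻¹' Amin (f j) ∧
      ¬ IsReg 4 (X (j + 1)) x}) :
    ∀ (O : ℕ → Set Y) (v' : ∀ j, Y → (X j).pt), IsSeq X Z f f' (fun j => Amin (f j)) O v' →
      O 0 = (⋃ l, G l)ᶜ → (v' 0 = fun y => p (v y)) → ∀ β : ℝ,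
      (∀ μ : Fin s, μ ∉ {i : Fin s | 1 ≤ ρ (Fin.natAdd k i)} → β < ρ (Fin.natAdd k μ) →
        ∃ J, ∀ j ≥ J, ThinM 3 1 (ι μ ⁻¹' O j \ ι μ ⁻¹' O (j + 1))) →
      ∃ J, ∀ j ≥ J, DimLe (X (j + 1)) 1 {x | x ∈ f' j ⁻¹' Amin (f j) ∧
        (β ≤ 0 ∨ ∃ ν : Fin s, β ≤ ρ (Fin.natAdd k ν) ∧
          x ∈ zer (L (j + 1) (Fin.natAdd k ν)) (σ (j + 1) ν))} := by
  classical
  obtain ⟨J₁, h1⟩ := h1
  obtain ⟨J₃, h2⟩ := h2
  have h := h'.amin
  have hres := h.res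
  have hneY : Nonempty Y := by
    have h3 := (h.flip 0).flip.ninj
    rw [Function.Injective] at h3
    push Not at h3
    obtain ⟨x, -⟩ := h3
    obtain ⟨w, -⟩ := hres.psurj x
    obtain ⟨y, -⟩ := hres.surj w
    exact ⟨y⟩
  -- the closed analytic sets which contain the hit points
  set Ht : ℕ → Set Y := hitT (⋃ l, G l) (fun y => p (v y)) f f' with hHt
  set Hd : Fin r → Prop := fun l =>
    G l ⊆ E ∧ ZT (⋃ l, G l) (fun y => p (v y)) f f' (G l) with hHd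
  have hex : ∀ l, ∃ (J : ℕ) (D : Set Y), IsClosed D ∧ (∀ y, T3.IsAnAt 4 D y) ∧
      (¬ Hd l → G l ∩ (Ht J ∩ E) ⊆ D ∧ ¬ G l ⊆ D) ∧ D ⊆ G l := by
    intro l
    by_cases hl : Hd l
    · exact ⟨0, ∅, isClosed_empty, fun y => H60.Z.isAnAt_of_notMem (by simp),
        fun h => (h hl).elim, empty_subset _⟩
    · by_cases hlE : G l ⊆ E
      · have hl' : ¬ ZT (⋃ l, G l) (fun y => p (v y)) f f' (G l) := fun h3 => hl ⟨hlE, h3⟩
        simp only [ZT] at hl'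
        push Not at hl'
        obtain ⟨J, C, hCc, hC, hC1, hC2⟩ := hl'
        exact ⟨J, G l ∩ C, (hres.closed l).inter hCc,
          fun y => isAnAt_inter (H60.Z.isAnAt_hyp (hres.hyp l) (hres.closed l) y) (hC y),
          fun _ => ⟨fun y hy => ⟨hy.1, hC1 ⟨hy.1, hy.2.1⟩⟩, fun h3 => hC2 fun y hy => (h3 hy).2⟩,
          inter_subset_left⟩
      · exact ⟨0, G l ∩ E, (hres.closed l).inter hEc,
          fun y => isAnAt_inter (H60.Z.isAnAt_hyp (hres.hyp l) (hres.closed l) y) (hEan y),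
          fun _ => ⟨fun y hy => ⟨hy.1, hy.2.2⟩, fun h3 => hlE fun y hy => (h3 hy).2⟩,
          inter_subset_left⟩
  choose Jl D hDc hDan hDG hDsub using hex
  set J₂ : ℕ := Finset.univ.sup Jl with hJ₂
  have hJl : ∀ l, Jl l ≤ J₂ := fun l => Finset.le_sup (f := Jl) (Finset.mem_univ l)
  set K₀ : Set (Fin r) := {l | (-1 < a l ∧ a l < 0) ∧ ¬ Hd l} with hK₀
  set K : Set (Fin r) := {l | l ∈ K₀ ∧ ∀ l' ∈ K₀, l' ≠ l → ¬ G l ⊆ G l'} with hK
  set S : Finset (Fin r) := Finset.univ.filter (· ∈ K) with hS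
  have hmS : ∀ l, l ∈ S ↔ l ∈ K := fun l => by simp [hS]
  set C : Set Y := ⋃ l ∈ S, D l with hC
  have hCc : IsClosed C := isClosed_biUnion_finset fun l _ => hDc l
  have hCan : ∀ y, T3.IsAnAt 4 C y := fun y => H60.Z.isAnAt_biUnion S fun l _ => hDan l y
  have hGC : ∀ l ∈ K, ¬ G l ⊆ C := by
    intro l hl
    refine not_sub_biUnion (hres.hyp l) (hres.conn l) ?_ hDc hDan S fun l' hl' h3 => ?_
    · rw [nonempty_iff_ne_empty]
      intro h3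
      refine (hDG l hl.1.2).2 ?_
      rw [h3]
      exact empty_subset _
    · by_cases hll : l' = l
      · subst hll
        exact (hDG l' hl.1.2).2 h3
      · exact hl.2 l' ((hmS l').1 hl').1 hll (h3.trans (hDsub l'))
  have hCd : ∀ l ∈ K, G l ⊆ closure (G l \ C) := fun l hl =>
    sub_closure_an (hres.hyp l) (hres.conn l) hCc hCan (hGC l hl)
  refine H335.MM.stP7M Y χ k s M m ρ H ι sg W X Z r v p P G f f' _ L c σ n t h
      {l | a l < 0 ∧ l ∉ K} K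
      {i | 1 ≤ ρ (Fin.natAdd k i)} (fun l hl hlK => ?_) (fun l hl => ?_) (fun i hi => not_le.1 hi)
      C hCc hCd (fun l hl => ?_) (max J₂ (max J₁ J₃)) (fun j hj => h2 j (by omega)) fun j hj => ?_
  · rw [← ha']
    by_contra h3
    exact hl ⟨not_le.1 h3, hlK⟩
  · rw [← ha']; exact hl.1.1.1
  · exact H335.MM.stSurf (hres.hyp l) (hres.closed l) hCc hCan (hCd l hl)
  · refine (h1 j (by omega)).mono fun x hx =>
      badPt_mono ?_ (cor_dense h' j).1 (hkey j _ x hx)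
    intro φ γ w hφ hγ hS' hB hfr
    obtain ⟨hB, hBE⟩ := hB
    have h3 : γ w ∈ Ht j := hin_hitT h' j φ γ w hφ hγ hS' hfr
    refine ⟨⟨?_, h3⟩, hBE⟩
    rcases hB with (hB | hB) | hB
    · rcases hB with hB | hB
      · obtain ⟨l, hl, h5⟩ := mem_iUnion₂.1 hB
        by_cases h6 : a l ≤ -1 ∨ Hd l
        · exact Or.inl (Or.inl (mem_iUnion₂.2 ⟨l, ⟨hl.1, h6⟩, h5⟩))
        · rw [not_or] at h6
          have h7 : l ∈ K₀ := ⟨⟨not_le.1 h6.1, hl.1⟩, h6.2⟩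
          have h8 : ∃ l' ∈ K₀, l' ≠ l ∧ G l ⊆ G l' := by
            by_contra h9
            push Not at h9
            exact hl.2 ⟨h7, h9⟩
          obtain ⟨l', h9, h10, h11⟩ := h8
          exact Or.inr ⟨l, h7.1, h5, Or.inl ⟨l', h9.1, h10, h11 h5⟩⟩
      · exact Or.inl (Or.inr hB)
    · obtain ⟨l, hl, hy, ⟨l', hl', hne', hy'⟩ | ⟨i, hi⟩⟩ := hB
      · exact Or.inr ⟨l, hl.1.1, hy, Or.inl ⟨l', hl'.1.1, hne', hy'⟩⟩
      · exact Or.inr ⟨l, hl.1.1, hy, Or.inr ⟨i, hi⟩⟩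
    · obtain ⟨l, hl, h5⟩ := mem_iUnion₂.1 hB
      have h6 : γ w ∈ Ht (Jl l) := hitT_anti ((hJl l).trans (by omega)) h3
      exact (h5.2 (mem_iUnion₂.2 ⟨l, (hmS l).2 hl,
        (hDG l hl.1.2).1 ⟨h5.1, h6, hBE⟩⟩)).elim

end

/-- (WZD) -/
theorem stWZD_of (hkey : StKeyW) : T3.StWZD := by
  intro Y _ _ _ _ _ χ hχ k s M hM hnef m hm hm0 ρ hρ hsum H _ _ _ _ _ _ ι sg hbd hdisj W X Z r
    v p P G hres hne f f' A L c hc n hn hflip a ha E hE hr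
  have hp1 := (stT8A Y χ hχ k s M hM hnef m hm hm0 ρ hρ hsum H ι sg hbd hdisj W X Z r
    v p P G hres hne f f' A L c hc n hn hflip a ha).1
  obtain ⟨L', c', σ, t, hc', hcmp, hcorr, hcc, hLL, hfl⟩ :=
    H29.W.wrap_core' (ι := ι) hM hm0 hbd hres hc hn hflip
  have h' : IsPG χ M m ρ ι sg v p P G f f' A L' c' σ n t :=
    ⟨hχ, hM, hnef, hm, hm0, hρ, hsum, hbd, hdisj, hres, hne, hc', hcmp, hcorr, hfl⟩
  have ha' : ∀ l, a l = ∑ e, ρ e * n e l / c' 0 e := by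
    intro l
    simp only [hcc]
    exact ha l
  have h := h'.amin
  have hE' : IsWZ χ (fun y => p (v y)) (L' 0) (c' 0) ρ E := by
    rw [show L' 0 = L 0 from funext hLL, show c' 0 = c 0 from funext hcc]
    exact hE
  have hk := fun (j : ℕ) (Bad : Set Y) (x : (X (j + 1)).pt) =>
    hkey Y χ k s M m ρ H ι sg W X Z r v p P G f f' A L' c' σ n t h' E hE' j Bad x
  -- the first part
  have hp2 : ¬ ∃ J, ∀ j ≥ J,
      DimLe (X (j + 1)) 1 {x | BadPt {x | f' j x ∈ Amin (f j)}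
        (Cor (⋃ l, G l) (fun y => p (v y)) f f' (j + 1))
        (((bad ι G {l | a l < 0 ∧ (a l ≤ -1 ∨
              G l ⊆ E ∧ ZT (⋃ l, G l) (fun y => p (v y)) f f' (G l))}
            {i | 1 ≤ ρ (Fin.natAdd k i)} ∪
          cross ι G {l | -1 < a l ∧ a l < 0}) ∩
            hitT (⋃ l, G l) (fun y => p (v y)) f f' j) ∩ E) x} ∧
      DimLe (X (j + 1)) 1 {x | f' j x ∈ Amin (f j) ∧ ¬ IsReg 4 (X (j + 1)) x ∧
        x ∈ Tot (Cor (⋃ l, G l) (fun y => p (v y)) f f' (j + 1))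
          (closure ((bad ι G {l | a l < -1} {i | 1 < ρ (Fin.natAdd k i)} ∪
            cross ι G {l | -1 ≤ a l ∧ a l < 0}) ∩
              hitT (⋃ l, G l) (fun y => p (v y)) f f' j))} := by
    rintro ⟨J₁, hcon⟩
    obtain ⟨J₃, hp1⟩ := hp1
    have hreg : ∃ J, ∀ j ≥ J, DimLe (X (j + 1)) 1
        {x | x ∈ f' j ⁻¹' Amin (f j) ∧ ¬ IsReg 4 (X (j + 1)) x} := by
      refine ⟨max J₁ J₃, fun j hj => ?_⟩
      refine (((hcon j (by omega)).2).union (hp1 j (by omega))).mono ?_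
      rintro x ⟨g1, g2⟩
      by_cases g4 : x ∈ Tot (Cor (⋃ l, G l) (fun y => p (v y)) f f' (j + 1))
          (closure ((bad ι G {l | a l < -1} {i | 1 < ρ (Fin.natAdd k i)} ∪
            cross ι G {l | -1 ≤ a l ∧ a l < 0}) ∩
              hitT (⋃ l, G l) (fun y => p (v y)) f f' j))
      · exact Or.inl ⟨g1, g2, g4⟩
      · exact Or.inr ⟨g1, g2, g4⟩
    exact H371.T.fin_coreD H615.X.stContrS h.lb h.bd h.res h.ne h.c1 h.cmp h.corr h.flip
      (hP8W h' ha' (wz_an hE).1 (wz_an hE).2 hk ⟨J₁, fun j hj => (hcon j hj).1⟩ hreg) hr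
  refine ⟨hp2, fun hb hklt hd1 hd2 => ?_⟩
  by_contra hcen
  push Not at hcen
  have hcross : ∀ K : Set (Fin r), (∀ l ∈ K, a l < 0) → cross ι G K = ∅ := by
    intro K hK
    refine eq_empty_of_forall_notMem ?_
    rintro y ⟨l, hl, hy, ⟨l', hl', hne', hy'⟩ | ⟨i, hi⟩⟩
    · exact disjoint_left.1 (hd1 l' l hne' (hK l' hl') (hK l hl)) hy' hy
    · exact disjoint_left.1 (hd2 l i (hK l hl)) hy hi
  have hneX : ∀ j, Nonempty (X j).pt := by
    intro j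
    have h3 := (hflip j).ninj
    rw [Function.Injective] at h3
    push Not at h3
    obtain ⟨x, -⟩ := h3
    exact ⟨x⟩
  refine hp2 ⟨0, fun j _ => ⟨?_, ?_⟩⟩
  · have := hneX (j + 1)
    refine dimLe_empty.mono ?_
    rintro x ⟨ξ, r', W', w₀, γ, ch, -, -, -, -, -, -, hw₀, h0, -, hγ⟩
    exfalso
    obtain ⟨⟨hy, -⟩, -⟩ := ((hγ w₀ hw₀).2.2.2.2.2 h0).1
    rw [hcross _ fun l hl => hl.2, union_empty] at hy
    rcases hy with hy | hy
    · obtain ⟨l, hl, -⟩ := mem_iUnion₂.1 hy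
      rcases hl.2 with h3 | h3
      · exact absurd (hklt l) (not_lt.2 h3)
      · exact hcen l hl.1 h3.1 h3.2
    · obtain ⟨i, hi, -⟩ := mem_iUnion₂.1 hy
      exact absurd (hb i) (not_lt.2 hi)
  · have := hneX (j + 1)
    refine dimLe_empty.mono ?_
    rintro x ⟨-, -, hx⟩
    exfalso
    obtain ⟨y, hy, -⟩ := hx
    have h3 : (bad ι G {l | a l < -1} {i | 1 < ρ (Fin.natAdd k i)} ∪
        cross ι G {l | -1 ≤ a l ∧ a l < 0}) = ∅ := by
      rw [hcross _ fun l hl => hl.2, union_empty]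
      refine eq_empty_of_forall_notMem fun y hy => ?_
      rcases hy with hy | hy
      · obtain ⟨l, hl, -⟩ := mem_iUnion₂.1 hy
        exact lt_asymm (hklt l) hl
      · obtain ⟨i, hi, -⟩ := mem_iUnion₂.1 hy
        exact lt_asymm (hb i) hi
    rw [h3, empty_inter, closure_empty] at hy
    exact hy

end Vale.Agent.P277.H615.WZ
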