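import Vale.Agent.P277.H29.E.RegH
import Vale.Agent.P277.H762.S.WsDef

/-!
# P277, (WS): the `G l` in which the germs of the wedges are centred are hit
-/

open scoped Manifold ContDiff Topology
open Vale.Agent.P272.K Vale.Agent.P285.H281.FD Vale.Agent.P267.H175 Set Metric Filter

noncomputable section

namespace Vale.Agent.P277.H615.WZ

open Vale.Agent.P277 Vale.Agent.P277.T2 Vale.Agent.P277.H335 Vale.Agent.P277.H615
open Vale.Agent.P277.H335.RR Vale.Agent.P277.H335.KK Vale.Agent.P277.H29.E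

section
variable {Y : Type} [TopologicalSpace Y] [T2Space Y] [CompactSpace Y] [ChartedSpace (Cm 4) Y]
  [IsManifold 𝓘(ℂ, Cm 4) ω Y] {χ : Chart 4 Y → Cm 4 → Matrix (Fin 4) (Fin 4) ℂ} {k s : ℕ}
  {M : Fin (k + s) → Bd Y} {m : Fin (k + s) → ℕ} {ρ : Fin (k + s) → ℝ} {H : Fin s → Type}
  [∀ i, TopologicalSpace (H i)] [∀ i, T2Space (H i)] [∀ i, CompactSpace (H i)]
  [∀ i, ConnectedSpace (H i)] [∀ i, ChartedSpace (Cm 3) (H i)]
  [∀ i, IsManifold 𝓘(ℂ, Cm 3) ω (H i)] {ι : ∀ i, H i → Y}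
  {sg : ∀ i : Fin s, (M (Fin.natAdd k i)).ι → Y → ℂ} {W : CSp} {X Z : ℕ → CSp} {r : ℕ}
  {v₀ : Y → W.pt} {p : W.pt → (X 0).pt} {P : Bd W.pt} {G : Fin r → Set Y}
  {f : ∀ j, (X j).pt → (Z j).pt} {f' : ∀ j, (X (j + 1)).pt → (Z j).pt}
  {A : ∀ j, Set (Z j).pt} {L : ∀ j, Fin (k + s) → Bd (X j).pt} {c : ℕ → Fin (k + s) → ℕ}
  {σ : ∀ j, ∀ i : Fin s, (L j (Fin.natAdd k i)).ι → (X j).pt → ℂ}
  {n : Fin (k + s) → Fin r → ℤ} {t : ∀ e, (L 0 e).ι →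
    ((((Bd.can 4 Y).pow (m e)).mul (M e)).pow (c 0 e)).ι → Y → ℂ}

/-- the centre on `Y` of a wedge centred in the flipped locus of `X (j + 1)` consists of points over
points which are hit -/
theorem hit_of_germ (h : T3.IsPG χ M m ρ ι sg v₀ p P G f f' A L c σ n t) {Bad : Set Y}
    {O : ℕ → Set Y} {v : ∀ j, Y → (X j).pt} {P' Q' : ℕ → Fin (k + s) → ℕ}
    {T : ∀ j e, (L j e).ι → (((Bd.can 4 Y).pow (m e)).mul (M e)).ι → Y → ℂ}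
    (hT : H884.G.TwSeqG ρ sg v₀ p G f f' L c σ t Bad O v P' Q' T) {j : ℕ}
    {W₁ : Set (Cm 4)} {w₁ : Cm 4} {φ : Cm 4 → (X (j + 1)).pt} {γ : Cm 4 → Y} {ch : Chart 4 Y}
    {μ : ∀ e, (M e).ι} {i : ∀ e, (L (j + 1) e).ι} {x : Fin (k + s) → ℚ} {J : ℕ}
    (hg : GermV (O (j + 1)) (v (j + 1)) (T (j + 1)) (f' j ⁻¹' Amin (f j)) W₁ w₁ φ γ ch μ i x J)
    {w : Cm 4} (hw : w ∈ W₁) (hw0 : w 0 = 0) : p (v₀ (γ w)) ∈ T3.hit f f' := by
  have hsm : ∀ j, IsSmall (X j) (Z j) (f j) (Amin (f j)) := fun j => by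
    obtain ⟨pp, qq, s', a, hf, -⟩ := hT.step j
    exact hf.small
  have hsm' : ∀ j, IsSmall (X (j + 1)) (Z j) (f' j) (Amin (f j)) := fun j => by
    obtain ⟨pp, qq, s', a, hf, -⟩ := hT.step j
    exact hf.small'
  have hvc : Continuous fun y => p (v₀ y) := h.res.cont.comp (continuousOn_univ.1 h.res.emb.cont)
  by_contra hy
  obtain ⟨x', hx', hcv⟩ := cont_offH' (D := ⋃ l, G l) hsm hsm' hvc hy j
  have hfr : ∃ᶠ w' in 𝓝 w, T3.Cor (⋃ l, G l) (fun y => p (v₀ y)) f f' (j + 1) (γ w') (φ w') := by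
    refine (mem_closure_iff_frequently.1 (hg.dense hw)).mono fun w' hw' => ?_
    have h1 := hg.lift1 w' hw'.1 hw'.2
    exact (cor_iff' hT (j + 1) _ _).2 ⟨h1, hg.lift2 w' hw'.1 h1⟩
  have h1 := eq_of_cv (hg.hol w hw).1 (hg.lift w hw).1 hfr hcv
  have hA := hg.inS w hw hw0
  rw [h1] at hA
  exact hx' hA

/-- **(WS-5')** if a wedge centred in the flipped locus of `X (j + 1)` is an open subset of `Y` centred
in `G l`, then `G l` is hit -/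
theorem zd_of_germ (h : T3.IsPG χ M m ρ ι sg v₀ p P G f f' A L c σ n t) {Bad : Set Y}
    {O : ℕ → Set Y} {v : ∀ j, Y → (X j).pt} {P' Q' : ℕ → Fin (k + s) → ℕ}
    {T : ∀ j e, (L j e).ι → (((Bd.can 4 Y).pow (m e)).mul (M e)).ι → Y → ℂ}
    (hT : H884.G.TwSeqG ρ sg v₀ p G f f' L c σ t Bad O v P' Q' T) {j : ℕ}
    {W₁ : Set (Cm 4)} {w₁ : Cm 4} {φ : Cm 4 → (X (j + 1)).pt} {γ : Cm 4 → Y} {ch : Chart 4 Y}
    {μ : ∀ e, (M e).ι} {i : ∀ e, (L (j + 1) e).ι} {x : Fin (k + s) → ℚ} {J : ℕ}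
    (hg : GermV (O (j + 1)) (v (j + 1)) (T (j + 1)) (f' j ⁻¹' Amin (f j)) W₁ w₁ φ γ ch μ i x J)
    {l : Fin r} {r₁ : ℝ} (hp : IsPar (G l) γ w₁ r₁) :
    T3.ZD (fun y => p (v₀ y)) (T3.hit f f') (G l) := by
  intro C hC hC1
  by_contra hcon
  push Not at hcon
  obtain ⟨y₁, hy₁, hC2⟩ := hcon
  have hvc : Continuous fun y => p (v₀ y) := h.res.cont.comp (continuousOn_univ.1 h.res.emb.cont)
  have hB : γ '' (ball w₁ r₁ ∩ W₁) ∈ 𝓝 (γ w₁) :=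
    (hp.openMap _ inter_subset_left (isOpen_ball.inter hg.isOpen)).mem_nhds
      ⟨w₁, ⟨mem_ball_self hp.pos, hg.mem⟩, rfl⟩
  have h2 := sub_closure_an (C := {y | p (v₀ y) ∈ C}) (h.res.hyp l) (h.res.conn l)
    ((isClosed_of_isAn hC).preimage hvc) (isAnAt_pre h.res hC) (fun h => hC2 (h hy₁))
    ((hp.mem w₁ (mem_ball_self hp.pos)).2 hp.zero)
  obtain ⟨y, ⟨w, ⟨hw1, hw2⟩, rfl⟩, hy1, hy2⟩ := mem_closure_iff_nhds.1 h2 _ hB
  exact hy2 (hC1 _ hy1 (hit_of_germ h hT hg hw2 ((hp.mem w hw1).1 hy1)))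

end

end Vale.Agent.P277.H615.WZ
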