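import Vale.Agent.P277.H615.W.HitW
import Vale.Agent.P277.H762.G.Num
import Vale.Agent.P277.H615.R.GermB

/-!
# P277, (WS-5'): the strict transforms of the `H i` at the germ of a wedge
-/

open scoped Manifold ContDiff Topology
open Vale.Agent.P272.K Vale.Agent.P285.H281.FD Vale.Agent.P267.H175 Set Metric Filter

noncomputable section

namespace Vale.Agent.P277.H615.WZ

open Vale.Agent.P277 Vale.Agent.P277.T2 Vale.Agent.P277.H335 Vale.Agent.P277.H615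
open Vale.Agent.P277.H335.RR Vale.Agent.P277.H335.KK Vale.Agent.P277.H29.E H371.C

section
variable {Y : Type} [TopologicalSpace Y] [T2Space Y] [CompactSpace Y] [ChartedSpace (Cm 4) Y]
  [IsManifold 𝓘(ℂ, Cm 4) ω Y] {χ : Chart 4 Y → Cm 4 → Matrix (Fin 4) (Fin 4) ℂ} {k s : ℕ}
  {M : Fin (k + s) → Bd Y} {m : Fin (k + s) → ℕ} {ρ : Fin (k + s) → ℝ} {H : Fin s → Type}
  [∀ i, TopologicalSpace (H i)] [∀ i, T2Space (H i)] [∀ i, CompactSpace (H i)]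
  [∀ i, ConnectedSpace (H i)] [∀ i, ChartedSpace (Cm 3) (H i)]
  [∀ i, IsManifold 𝓘(ℂ, Cm 3) ω (H i)] {ι : ∀ i, H i → Y}
  {sg : ∀ i : Fin s, (M (Fin.natAdd k i)).ι → Y → ℂ} {W : CSp} {X Z : ℕ → CSp} {r : ℕ}
  {v₀ : Y → W.pt} {p : W.pt → (X 0).pt} {P : Bd W.pt} {G : Fin r → Set Y}
  {f : ∀ j, (X j).pt → (Z j).pt} {f' : ∀ j, (X (j + 1)).pt → (Z j).pt}
  {A : ∀ j, Set (Z j).pt} {L : ∀ j, Fin (k + s) → Bd (X j).pt} {c : ℕ → Fin (k + s) → ℕ}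
  {σ : ∀ j, ∀ i : Fin s, (L j (Fin.natAdd k i)).ι → (X j).pt → ℂ}
  {n : Fin (k + s) → Fin r → ℤ} {t : ∀ e, (L 0 e).ι →
    ((((Bd.can 4 Y).pow (m e)).mul (M e)).pow (c 0 e)).ι → Y → ℂ}

/-- **(WS-5')** if the function `T` has order zero along the wedge, and the centre of the wedge on `Y`
is not in `H a`, then the centre on `X (j + 1)` is not in the zero set of the section `σ (j + 1) a` -/
theorem sig_ne_zero (h : T3.IsPG χ M m ρ ι sg v₀ p P G f f' A L c σ n t) {Bad : Set Y}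
    {O : ℕ → Set Y} {v : ∀ j, Y → (X j).pt} {P' Q' : ℕ → Fin (k + s) → ℕ}
    {T : ∀ j e, (L j e).ι → (((Bd.can 4 Y).pow (m e)).mul (M e)).ι → Y → ℂ}
    (hT : H884.G.TwSeqG ρ sg v₀ p G f f' L c σ t Bad O v P' Q' T) {j : ℕ}
    {W₁ : Set (Cm 4)} {w₁ : Cm 4} {φ : Cm 4 → (X (j + 1)).pt} {γ : Cm 4 → Y} {ch : Chart 4 Y}
    {μ : ∀ e, (M e).ι} {i : ∀ e, (L (j + 1) e).ι} {x : Fin (k + s) → ℚ} {J : ℕ}
    (hg : GermV (O (j + 1)) (v (j + 1)) (T (j + 1)) (f' j ⁻¹' Amin (f j)) W₁ w₁ φ γ ch μ i x J)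
    {a : Fin s} (hx : x (Fin.natAdd k a) = 0) (hr : γ w₁ ∉ range (ι a)) :
    σ (j + 1) a (i (Fin.natAdd k a)) (φ w₁) ≠ 0 := by
  obtain ⟨K, hK, hu⟩ := hg.unit
  obtain ⟨ν, Φ, h1, h2, h3, h4⟩ := hu (Fin.natAdd k a)
  have hν : ν = 0 := by
    rw [hx, zero_mul] at h1
    exact_mod_cast h1
  subst hν
  obtain ⟨g1, g2, g3⟩ := hg.lift w₁ hg.mem
  have hMo : IsOpen ((M (Fin.natAdd k a)).U (μ (Fin.natAdd k a))) := (h.lb _).isOpen _
  have hs0 : sg a (μ (Fin.natAdd k a)) (γ w₁) ≠ 0 := fun h0 =>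
    hr (((h.bd a).zero _ _ (hg.memN w₁ hg.mem _)).1 h0)
  have hsc : ContinuousAt (fun w => sg a (μ (Fin.natAdd k a)) (γ w)) w₁ :=
    (analyticAt_comp_chart g1 g2 g3
      ((h.bd a).sec.holo _ ch _ g2 (hg.memN w₁ hg.mem _)).analyticAt).continuousAt
  have hsec := (h.flip (j + 1)).sec a
  have hσc : ContinuousAt (fun w => σ (j + 1) a (i (Fin.natAdd k a)) (φ w)) w₁ :=
    ContinuousAt.comp (g := fun x => σ (j + 1) a (i (Fin.natAdd k a)) x)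
      (hol_continuousAt (hsec.holo _ _ (mem_univ _) (hg.memU w₁ hg.mem _)))
      (hg.hol w₁ hg.mem).1
  intro h0
  set PP := P' (j + 1) (Fin.natAdd k a) with hPP
  set QQ := Q' (j + 1) (Fin.natAdd k a) with hQQ
  have hc1 : ContinuousAt (fun w => (σ (j + 1) a (i (Fin.natAdd k a)) (φ w) ^ PP) ^ K * Φ w) w₁ :=
    ((hσc.pow _).pow _).mul h2.continuousAt
  have hc2 : ContinuousAt (fun w => (sg a (μ (Fin.natAdd k a)) (γ w) ^ QQ) ^ K) w₁ :=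
    (hsc.pow _).pow _
  have hPP1 : 1 ≤ PP := (hT.tw j).tw _ |>.hP
  have hne : (fun w => (σ (j + 1) a (i (Fin.natAdd k a)) (φ w) ^ PP) ^ K * Φ w -
      (sg a (μ (Fin.natAdd k a)) (γ w) ^ QQ) ^ K) w₁ ≠ 0 := by
    simp only [h0]
    rw [zero_pow (by omega), zero_pow (by omega), zero_mul, zero_sub]
    exact neg_ne_zero.2 (pow_ne_zero _ (pow_ne_zero _ hs0))
  obtain ⟨w, ⟨hwO, hw0⟩, hw1, hw2, hw3⟩ := ((hg.freqO (hT.sub_compl j) hg.mem).and_eventually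
    (((hc1.sub hc2).eventually_ne hne).and (h4.and (hg.isOpen.eventually_mem hg.mem)))).exists
  refine hw1 ?_
  obtain ⟨k1, k2, k3⟩ := hg.lift w hw3
  have e1 := hw2 hwO hw0
  rw [zpow_zero, one_mul] at e1
  have e2 := hT.sec (j + 1) a (γ w) (i (Fin.natAdd k a)) ch (μ (Fin.natAdd k a)) hwO
    (by rw [hg.lift2 w hw3 hwO]; exact hg.memU w hw3 _) k2 (hg.memN w hw3 _)
  rw [hg.lift2 w hw3 hwO] at e2
  show (σ (j + 1) a (i (Fin.natAdd k a)) (φ w) ^ PP) ^ K * Φ w -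
      (sg a (μ (Fin.natAdd k a)) (γ w) ^ QQ) ^ K = 0
  rw [← e1, ← mul_pow, e2, sub_self]

/-- **(WS-5')** if the function `T` has order zero along the wedge, and the centre of the wedge on `Y`
is not in `H a`, then the centre on `X (j + 1)` is not in the strict transform of `H a` -/
theorem notMem_str (h : T3.IsPG χ M m ρ ι sg v₀ p P G f f' A L c σ n t) {Bad : Set Y}
    {O : ℕ → Set Y} {v : ∀ j, Y → (X j).pt} {P' Q' : ℕ → Fin (k + s) → ℕ}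
    {T : ∀ j e, (L j e).ι → (((Bd.can 4 Y).pow (m e)).mul (M e)).ι → Y → ℂ}
    (hT : H884.G.TwSeqG ρ sg v₀ p G f f' L c σ t Bad O v P' Q' T) {j : ℕ}
    {W₁ : Set (Cm 4)} {w₁ : Cm 4} {φ : Cm 4 → (X (j + 1)).pt} {γ : Cm 4 → Y} {ch : Chart 4 Y}
    {μ : ∀ e, (M e).ι} {i : ∀ e, (L (j + 1) e).ι} {x : Fin (k + s) → ℚ} {J : ℕ}
    (hg : GermV (O (j + 1)) (v (j + 1)) (T (j + 1)) (f' j ⁻¹' Amin (f j)) W₁ w₁ φ γ ch μ i x J)
    {a : Fin s} (hx : x (Fin.natAdd k a) = 0) (hr : γ w₁ ∉ range (ι a)) :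
    φ w₁ ∉ T3.Str (T3.Cor (⋃ l, G l) (fun y => p (v₀ y)) f f' (j + 1)) (range (ι a)) := fun hm =>
  sig_ne_zero h hT hg hx hr (H762.G.str_sub_zer h j a hm _ (hg.memU w₁ hg.mem _))

end

end Vale.Agent.P277.H615.WZ
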